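import Vale.Agent.P201.S.VK.Basic

/-! P201, part D1 (StmtVK): diagrams with potentials; the operations spur and chord.  helper575. -/

namespace Vale.Agent.P201.S.VK

open Finset

variable {S : Sys}

/-- word of a list of darts -/
def wdl {A E : Type} (lab : E → A) (l : List (E × Bool)) : List (A × Bool) :=
  l.map (fun d => (lab d.1, d.2))

@[simp] theorem wdl_nil {A E : Type} (lab : E → A) : wdl lab [] = [] := rfl
@[simp] theorem wdl_cons {A E : Type} (lab : E → A) (d : E × Bool) (l : List (E × Bool)) :
    wdl lab (d :: l) = (lab d.1, d.2) :: wdl lab l := rfl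
@[simp] theorem wdl_append {A E : Type} (lab : E → A) (l m : List (E × Bool)) :
    wdl lab (l ++ m) = wdl lab l ++ wdl lab m := by simp [wdl]

theorem wdl_append_inv {A E : Type} (lab : E → A) {l : List (E × Bool)} {a b : List (A × Bool)}
    (h : wdl lab l = a ++ b) : ∃ l1 l2, l = l1 ++ l2 ∧ wdl lab l1 = a ∧ wdl lab l2 = b :=
  List.map_eq_append_iff.1 h

theorem wdl_cons_inv {A E : Type} (lab : E → A) {l : List (E × Bool)} {a : A × Bool}
    {b : List (A × Bool)} (h : wdl lab l = a :: b) :
    ∃ d l2, l = d :: l2 ∧ (lab d.1, d.2) = a ∧ wdl lab l2 = b :=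
  List.map_eq_cons_iff.1 h

/-- diagram over the presentation, with potentials -/
structure DG (σ : Equiv.Perm (S.C)) extends QC (Let S) where
  q : F → Port S
  sq : ∀ f : F, wdl lab (bd (some f)) = relw σ (q f)
  π : V → Gp σ
  st : ∀ d : E × Bool,
    π (org d) * PresentedGroup.mk (rels σ) (FreeGroup.mk [(lab d.1, d.2)]) = π (org (rv d))
  base : π (root none) = 1

variable {σ : Equiv.Perm (S.C)}

/-- total chain -/
noncomputable def DG.chn (D : DG σ) : Chn σ := ∑ f, pch σ (D.π (D.root (some f))) (D.q f)

/-- there is a diagram with outer word `W` (read negatively), `k` squares and chain `z` -/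
def Has (σ : Equiv.Perm (S.C)) (W : List (Let S × Bool)) (k : ℕ) (z : Chn σ) : Prop :=
  ∃ D : DG σ, wdl D.lab (D.bd none) = W ∧ Fintype.card D.F = k ∧ D.chn = z

theorem DG.walk (D : DG σ) {u v : D.V} {l : List (D.E × Bool)} (h : Wk D.org u l v) :
    D.π u * PresentedGroup.mk (rels σ) (val (wdl D.lab l)) = D.π v := by
  induction l generalizing u with
  | nil =>
    simp only [wk_nil] at h
    subst h
    have : val (wdl D.lab ([] : List (D.E × Bool))) = 1 := rfl
    rw [this, map_one, mul_one]
  | cons d l ih =>
    obtain ⟨h1, h2⟩ := h
    have h3 := ih h2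
    have h4 := D.st d
    have h5 : val (wdl D.lab (d :: l)) = FreeGroup.mk [(D.lab d.1, d.2)] * val (wdl D.lab l) := by
      rw [wdl_cons, val, val, FreeGroup.mul_mk]
      rfl
    rw [h5, map_mul, ← mul_assoc, ← h1, h4, h3]

/-! ### the point -/

theorem has_nil : Has σ [] 0 0 := by
  refine ⟨{ V := Unit, E := Empty, F := Empty, org := fun x => x.1.elim, lab := fun x => x.elim,
            bd := fun _ => [], root := fun _ => (), wk := fun _ => rfl,
            once := fun x => x.1.elim, ne := fun f => f.elim,
            conn := fun _ _ => Relation.ReflTransGen.refl,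
            dconn := ?_, euler := by simp, q := fun f => f.elim, sq := fun f => f.elim,
            π := fun _ => 1, st := fun x => x.1.elim, base := rfl }, rfl, by simp, ?_⟩
  · rintro (_ | f) (_ | g)
    · exact Relation.ReflTransGen.refl
    · exact g.elim
    · exact f.elim
    · exact f.elim
  · simp [DG.chn]

/-! ### spur -/

section iota

variable {V E : Type}

/-- embedding of darts after adding an edge -/
def io (x : E × Bool) : Option E × Bool := (some x.1, x.2)

theorem io_inj : Function.Injective (io : E × Bool → Option E × Bool) := by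
  rintro ⟨a, b⟩ ⟨c, d⟩ h
  simpa [io] using h

@[simp] theorem rv_io (x : E × Bool) : rv (io x) = io (rv x) := rfl

theorem none_notMem_io (l : List (E × Bool)) (t : Bool) : ((none : Option E), t) ∉ l.map io := by
  simp [io]

theorem count_io [BEq (E × Bool)] [LawfulBEq (E × Bool)] [BEq (Option E × Bool)]
    [LawfulBEq (Option E × Bool)] (l : List (E × Bool)) (e : E) (t : Bool) :
    (l.map io).count (some e, t) = l.count (e, t) :=
  List.count_map_of_injective l io io_inj (e, t)

theorem count_io_none [BEq (Option E × Bool)] [LawfulBEq (Option E × Bool)]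
    (l : List (E × Bool)) (t : Bool) :
    (l.map io).count ((none : Option E), t) = 0 :=
  List.count_eq_zero.2 (none_notMem_io l t)

end iota

theorem wdl_io {A E : Type} (lab : E → A) (a : A) (l : List (E × Bool)) :
    wdl (fun e : Option E => e.elim a lab) (l.map io) = wdl lab l := by
  simp [wdl, io, Function.comp_def]

theorem sum_option_count {F : Type} [Fintype F] (h : Option F → ℕ) :
    ∑ f, h f = h none + ∑ f : F, h (some f) := Fintype.sum_option h

theorem has_spur {W1 W2 : List (Let S × Bool)} {k : ℕ} {z : Chn σ} (h : Has σ (W1 ++ W2) k z)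
    (a : Let S) (s : Bool) : Has σ (W1 ++ [(a, s), (a, !s)] ++ W2) k z := by
  obtain ⟨D, hW, hk, hz⟩ := h
  obtain ⟨l1, l2, hl, hl1, hl2⟩ := wdl_append_inv _ hW
  have hwk := D.wk none
  rw [hl, wk_append] at hwk
  obtain ⟨m, hw1, hw2⟩ := hwk
  let org' : Option D.E × Bool → Option D.V := fun x =>
    x.1.elim (if x.2 = s then some m else none) (fun e => some (D.org (e, x.2)))
  let lab' : Option D.E → Let S := fun e => e.elim a D.lab
  let bd' : Option D.F → List (Option D.E × Bool) := fun f =>
    f.elim (l1.map io ++ [(none, s), (none, !s)] ++ l2.map io) (fun f => (D.bd (some f)).map io)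
  have ho : ∀ x : D.E × Bool, org' (io x) = some (D.org x) := fun x => rfl
  have hw : ∀ (u v : D.V) (l : List (D.E × Bool)), Wk D.org u l v →
      Wk org' (some u) (l.map io) (some v) := fun u v l h =>
    wk_map (φ := some) (fun x _ => ho x) (fun x _ => by rw [rv_io]; exact ho _) h
  refine ⟨{ V := Option D.V, E := Option D.E, F := D.F, org := org', lab := lab', bd := bd',
            root := fun f => some (D.root f), wk := ?_, once := ?_, ne := ?_, conn := ?_,
            dconn := ?_, euler := ?_, q := D.q, sq := ?_,
            π := fun x => x.elim (D.π m * PresentedGroup.mk (rels σ) (FreeGroup.mk [(a, s)])) D.π,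
            st := ?_, base := D.base }, ?_, hk, ?_⟩
  · rintro (_ | f)
    · change Wk org' (some (D.root none)) (l1.map io ++ [(none, s), (none, !s)] ++ l2.map io)
        (some (D.root none))
      rw [wk_append]
      refine ⟨some m, ?_, hw _ _ _ hw2⟩
      rw [wk_append]
      refine ⟨some m, hw _ _ _ hw1, ?_⟩
      simp [org', rv]
    · exact hw _ _ _ (D.wk (some f))
  · have key : ∀ [BEq (Option D.E × Bool)] [LawfulBEq (Option D.E × Bool)]
        (d : Option D.E × Bool), ∑ f, (bd' f).count d = 1 := by
      intro _ _
      have h0 : bd' none = l1.map io ++ [(none, s), (none, !s)] ++ l2.map io := rfl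
      have hf : ∀ f, bd' (some f) = (D.bd (some f)).map io := fun _ => rfl
      rintro ⟨_ | e, t⟩
      · rw [sum_option_count, h0]
        simp_rw [hf, count_io_none]
        rw [List.count_append, List.count_append, count_io_none, count_io_none]
        cases t <;> cases s <;> simp
      · rw [sum_option_count, ← D.once (e, t), sum_option_count, h0]
        simp_rw [hf, count_io]
        rw [List.count_append, List.count_append, count_io, count_io, hl, List.count_append]
        simp
    intro d
    convert key d
  · intro f hf
    exact D.ne f (List.map_eq_nil_iff.1 hf)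
  · have h1 : ∀ u v : D.V, Relation.ReflTransGen
        (fun a b => ∃ d, org' d = a ∧ org' (rv d) = b) (some u) (some v) := by
      intro u v
      refine (D.conn u v).lift some ?_
      rintro x y ⟨d, rfl, rfl⟩
      exact ⟨io d, ho d, by rw [rv_io]; exact ho _⟩
    have h2 : Relation.ReflTransGen
        (fun a b => ∃ d, org' d = a ∧ org' (rv d) = b) (some m) none :=
      Relation.ReflTransGen.single ⟨(none, s), by simp [org'], by simp [org', rv]⟩
    have h3 : Relation.ReflTransGen
        (fun a b => ∃ d, org' d = a ∧ org' (rv d) = b) none (some m) :=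
      Relation.ReflTransGen.single ⟨(none, !s), by simp [org'], by simp [org', rv]⟩
    rintro (_ | u) (_ | v)
    · exact Relation.ReflTransGen.refl
    · exact h3.trans (h1 _ _)
    · exact (h1 _ _).trans h2
    · exact h1 _ _
  · intro f g
    refine (D.dconn f g).lift id ?_
    rintro x y ⟨d, hd1, hd2⟩
    refine ⟨io d, ?_, ?_⟩
    · rcases x with _ | x
      · change io d ∈ l1.map io ++ [(none, s), (none, !s)] ++ l2.map io
        rw [hl, List.mem_append] at hd1
        rcases hd1 with h | h
        · simp [List.mem_map_of_mem (f := io) h]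
        · simp [List.mem_map_of_mem (f := io) h]
      · exact List.mem_map_of_mem (f := io) hd1
    · rw [rv_io]
      rcases y with _ | y
      · change io (rv d) ∈ l1.map io ++ [(none, s), (none, !s)] ++ l2.map io
        rw [hl, List.mem_append] at hd2
        rcases hd2 with h | h
        · simp [List.mem_map_of_mem (f := io) h]
        · simp [List.mem_map_of_mem (f := io) h]
      · exact List.mem_map_of_mem (f := io) hd2
  · have := D.euler
    rw [Fintype.card_option, Fintype.card_option]
    omega
  · intro f
    change wdl (fun e : Option D.E => e.elim a D.lab) ((D.bd (some f)).map io) = _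
    rw [wdl_io]
    exact D.sq f
  · rintro ⟨_ | e, t⟩
    · by_cases hts : t = s
      · subst hts
        simp [org', rv, lab']
      · have : t = !s := by cases t <;> cases s <;> simp_all
        subst this
        simp only [org', rv, lab', Option.elim_none, Bool.not_not, if_true]
        have h1 : FreeGroup.mk [(a, !s)] = (FreeGroup.mk [(a, s)])⁻¹ := by
          simp [FreeGroup.inv_mk, FreeGroup.invRev]
        rw [h1, map_inv]
        cases s <;> simp
    · exact D.st (e, t)
  · change wdl (fun e : Option D.E => e.elim a D.lab)
      (l1.map io ++ [(none, s), (none, !s)] ++ l2.map io) = _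
    rw [wdl_append, wdl_append, wdl_io, wdl_io, hl1, hl2]
    simp
  · rw [← hz]
    rfl

/-! ### chord -/

theorem mk_relw (σ : Equiv.Perm (S.C)) (q : Port S) :
    PresentedGroup.mk (rels σ) (val (relw σ q)) = 1 :=
  (QuotientGroup.eq_one_iff _).2 (Subgroup.subset_normalClosure ⟨q, rfl⟩)

theorem val_append {A : Type} (l m : List (A × Bool)) : val (l ++ m) = val l * val m := by
  rw [val, val, val, FreeGroup.mul_mk]

theorem val_cons {A : Type} (a : A × Bool) (m : List (A × Bool)) :
    val (a :: m) = val [a] * val m := by
  rw [← val_append]; rfl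

theorem val_inv_single {A : Type} (a : A) (s : Bool) :
    (FreeGroup.mk [(a, !s)] : FreeGroup A) = (FreeGroup.mk [(a, s)])⁻¹ := by
  simp [FreeGroup.inv_mk, FreeGroup.invRev]

theorem has_chord {W1 R W3 : List (Let S × Bool)} {k : ℕ} {z : Chn σ} {a : Let S} {b : Bool}
    {q0 : Port S} (h : Has σ (W1 ++ R ++ W3) k z) (hq : relw σ q0 = (a, b) :: R) :
    Has σ (W1 ++ [(a, !b)] ++ W3) (k + 1)
      (pch σ (PresentedGroup.mk (rels σ) (val (W1 ++ R))) q0 + z) := by
  obtain ⟨D, hW, hk, hz⟩ := h
  obtain ⟨l12, l3, hl, hl12, hl3⟩ := wdl_append_inv _ hW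
  obtain ⟨l1, l2, rfl, hl1, hl2⟩ := wdl_append_inv _ hl12
  have hwk := D.wk none
  rw [hl, wk_append] at hwk
  obtain ⟨u, hw12, hw3⟩ := hwk
  obtain ⟨m, hw1, hw2⟩ := wk_append.1 hw12
  have hπu : D.π u = PresentedGroup.mk (rels σ) (val (W1 ++ R)) := by
    rw [← D.walk hw12, D.base, one_mul, hl12]
  have hrel : PresentedGroup.mk (rels σ) (FreeGroup.mk [(a, b)]) *
      PresentedGroup.mk (rels σ) (val R) = 1 := by
    rw [← map_mul, ← mk_relw σ q0, hq, val_cons]
    rfl
  have hmu : D.π m * PresentedGroup.mk (rels σ) (val R) = D.π u := by
    rw [← hl2]; exact D.walk hw2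
  let org' : Option D.E × Bool → D.V := fun x =>
    x.1.elim (if x.2 = b then u else m) (fun e => D.org (e, x.2))
  let lab' : Option D.E → Let S := fun e => e.elim a D.lab
  let bd' : Option (Option D.F) → List (Option D.E × Bool) := fun f =>
    f.elim (l1.map io ++ [(none, !b)] ++ l3.map io)
      (fun f => f.elim ((none, b) :: l2.map io) (fun f => (D.bd (some f)).map io))
  let root' : Option (Option D.F) → D.V := fun f =>
    f.elim (D.root none) (fun f => f.elim u (fun f => D.root (some f)))
  have ho : ∀ x : D.E × Bool, org' (io x) = D.org x := fun x => rfl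
  have hw : ∀ (u v : D.V) (l : List (D.E × Bool)), Wk D.org u l v →
      Wk org' u (l.map io) v := fun u v l h =>
    wk_map (φ := id) (fun x _ => ho x) (fun x _ => by rw [rv_io]; exact ho _) h
  refine ⟨{ V := D.V, E := Option D.E, F := Option D.F, org := org', lab := lab', bd := bd',
            root := root', wk := ?_, once := ?_, ne := ?_, conn := ?_,
            dconn := ?_, euler := ?_, q := fun f => f.elim q0 D.q, sq := ?_,
            π := D.π, st := ?_, base := D.base }, ?_, ?_, ?_⟩
  · rintro (_ | _ | f)
    · change Wk org' (D.root none) (l1.map io ++ [(none, !b)] ++ l3.map io) (D.root none)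
      rw [wk_append]
      refine ⟨u, ?_, hw _ _ _ hw3⟩
      rw [wk_append]
      refine ⟨m, hw _ _ _ hw1, ?_⟩
      simp [org', rv]
    · change Wk org' u ((none, b) :: l2.map io) u
      rw [wk_cons]
      refine ⟨by simp [org'], ?_⟩
      have : org' (rv ((none : Option D.E), b)) = m := by simp [org', rv]
      rw [this]
      exact hw _ _ _ hw2
    · exact hw _ _ _ (D.wk (some f))
  · have key : ∀ [BEq (Option D.E × Bool)] [LawfulBEq (Option D.E × Bool)]
        (d : Option D.E × Bool), ∑ f, (bd' f).count d = 1 := by
      intro _ _
      have h0 : bd' none = l1.map io ++ [(none, !b)] ++ l3.map io := rfl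
      have h1 : bd' (some none) = (none, b) :: l2.map io := rfl
      have hf : ∀ f, bd' (some (some f)) = (D.bd (some f)).map io := fun _ => rfl
      rintro ⟨_ | e, t⟩
      · rw [sum_option_count, sum_option_count, h0, h1]
        simp_rw [hf, count_io_none]
        rw [List.count_append, List.count_append, count_io_none, count_io_none,
          List.count_cons (l := l2.map io), count_io_none]
        cases t <;> cases b <;> simp
      · rw [sum_option_count, sum_option_count, ← D.once (e, t), sum_option_count, h0, h1]
        simp_rw [hf, count_io]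
        rw [List.count_append, List.count_append, count_io, count_io,
          List.count_cons (l := l2.map io), count_io, hl, List.count_append, List.count_append]
        simp
        ring
    intro d
    convert key d
  · rintro (_ | f) hf
    · exact List.cons_ne_nil _ _ hf
    · exact D.ne f (List.map_eq_nil_iff.1 hf)
  · intro u v
    refine (D.conn u v).lift id ?_
    rintro x y ⟨d, rfl, rfl⟩
    exact ⟨io d, ho d, by rw [rv_io]; exact ho _⟩
  · have h1 : Relation.ReflTransGen (fun a b => ∃ d, d ∈ bd' a ∧ rv d ∈ bd' b) none (some none) :=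
      Relation.ReflTransGen.single ⟨(none, !b), by simp [bd'], by simp [bd', rv]⟩
    have h2 : Relation.ReflTransGen (fun a b => ∃ d, d ∈ bd' a ∧ rv d ∈ bd' b) (some none) none :=
      Relation.ReflTransGen.single ⟨(none, b), by simp [bd'], by simp [bd', rv]⟩
    -- every old dart of an old face lies on the new face or on the new square
    have h3 : ∀ (f : Option D.F) (d : D.E × Bool), d ∈ D.bd f → io d ∈ bd' (f.elim none
        (fun f => some (some f))) ∨ (f = none ∧ io d ∈ bd' (some none)) := by
      rintro (_ | f) d hd
      · rw [hl, List.mem_append, List.mem_append] at hd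
        rcases hd with (h | h) | h
        · left
          simp [bd', List.mem_map_of_mem (f := io) h]
        · right
          simp [bd', List.mem_map_of_mem (f := io) h]
        · left
          simp [bd', List.mem_map_of_mem (f := io) h]
      · left
        exact List.mem_map_of_mem (f := io) hd
    have h4 : ∀ f g : Option D.F, Relation.ReflTransGen
        (fun a b => ∃ d, d ∈ bd' a ∧ rv d ∈ bd' b) (f.elim none (fun f => some (some f)))
          (g.elim none (fun f => some (some f))) := by
      intro f g
      refine (D.dconn f g).lift' (fun f : Option D.F => f.elim none (fun f => some (some f))) ?_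
      rintro x y ⟨d, hd1, hd2⟩
      rcases h3 x d hd1 with hx | ⟨rfl, hx⟩ <;> rcases h3 y (rv d) hd2 with hy | ⟨rfl, hy⟩
      · exact Relation.ReflTransGen.single ⟨io d, hx, hy⟩
      · exact (Relation.ReflTransGen.single ⟨io d, hx, hy⟩ :
          Relation.ReflTransGen _ _ (some none)).trans h2
      · exact h1.trans (Relation.ReflTransGen.single ⟨io d, hx, hy⟩)
      · exact Relation.ReflTransGen.refl
    have h5 : ∀ f : Option (Option D.F), Relation.ReflTransGen
        (fun a b => ∃ d, d ∈ bd' a ∧ rv d ∈ bd' b) none f := by
      rintro (_ | _ | f)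
      · exact Relation.ReflTransGen.refl
      · exact h1
      · exact h4 none (some f)
    have h6 : ∀ f : Option (Option D.F), Relation.ReflTransGen
        (fun a b => ∃ d, d ∈ bd' a ∧ rv d ∈ bd' b) f none := by
      rintro (_ | _ | f)
      · exact Relation.ReflTransGen.refl
      · exact h2
      · exact h4 (some f) none
    exact fun f g => (h6 f).trans (h5 g)
  · have := D.euler
    rw [Fintype.card_option, Fintype.card_option]
    omega
  · rintro (_ | f)
    · change wdl (fun e : Option D.E => e.elim a D.lab) ((none, b) :: l2.map io) = _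
      rw [wdl_cons, wdl_io, hl2]
      exact hq.symm
    · change wdl (fun e : Option D.E => e.elim a D.lab) ((D.bd (some f)).map io) = _
      rw [wdl_io]
      exact D.sq f
  · rintro ⟨_ | e, t⟩
    · have h7 : D.π u * PresentedGroup.mk (rels σ) (FreeGroup.mk [(a, b)]) = D.π m := by
        rw [← hmu, mul_assoc, mul_eq_one_iff_eq_inv.1 hrel, mul_inv_cancel, mul_one]
      by_cases hts : t = b
      · subst hts
        simpa [org', rv, lab'] using h7
      · have : t = !b := by cases t <;> cases b <;> simp_all
        subst this
        have e1 : org' ((none : Option D.E), !b) = m := by simp [org']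
        have e2 : org' (rv ((none : Option D.E), !b)) = u := by simp [org', rv]
        rw [e1, e2]
        change D.π m * PresentedGroup.mk (rels σ) (FreeGroup.mk [(a, !b)]) = D.π u
        rw [val_inv_single, map_inv, ← h7, mul_assoc, mul_inv_cancel, mul_one]
    · exact D.st (e, t)
  · change wdl (fun e : Option D.E => e.elim a D.lab)
      (l1.map io ++ [(none, !b)] ++ l3.map io) = _
    rw [wdl_append, wdl_append, wdl_io, wdl_io, hl1, hl3]
    simp
  · exact (Fintype.card_option (α := D.F)).trans (by rw [hk])
  · rw [← hz, ← hπu]
    exact Fintype.sum_option _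

end Vale.Agent.P201.S.VK
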