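import Vale.Agent.P201.S.VK.VK0
import Vale.Agent.P201.S.D.VKDefs

namespace Vale.Agent.P201.S.VK

theorem stmtVK0 : StmtVK0 := fun _ _ _ _ _ h => vk0 h

end Vale.Agent.P201.S.VK
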