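import Vale.Agent.P201.S.VK.Ops

/-! P201, part D1 (StmtVK0): every expression is realised by a complex whose outer word has the right
value.  helper575. -/

namespace Vale.Agent.P201.S.VK

open Finset

variable {S : Sys} {σ : Equiv.Perm (S.C)}

theorem winv_nil {A : Type} : winv ([] : List (A × Bool)) = [] := rfl

theorem winv_append {A : Type} (l m : List (A × Bool)) : winv (l ++ m) = winv m ++ winv l := by
  simp [winv]

theorem winv_cons {A : Type} (a : A × Bool) (m : List (A × Bool)) :
    winv (a :: m) = winv m ++ [(a.1, !a.2)] := by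
  simp [winv]

theorem winv_winv {A : Type} (l : List (A × Bool)) : winv (winv l) = l := by
  simp [winv, List.map_reverse, Function.comp_def]

theorem val_winv {A : Type} (l : List (A × Bool)) : val (winv l) = (val l)⁻¹ := by
  rw [val, val, FreeGroup.inv_mk]
  rfl

theorem has_path {W1 W2 : List (Let S × Bool)} {k : ℕ} {z : Chn σ} (h : Has σ (W1 ++ W2) k z)
    (v : List (Let S × Bool)) : Has σ (W1 ++ v ++ winv v ++ W2) k z := by
  induction v generalizing W1 W2 with
  | nil => simpa [winv_nil] using h
  | cons a v ih =>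
    have h1 : Has σ ((W1 ++ [(a.1, a.2)]) ++ ([(a.1, !a.2)] ++ W2)) k z := by
      have := has_spur h a.1 a.2
      simpa using this
    have h2 := ih h1
    rw [winv_cons]
    simpa using h2

theorem has_val {W : List (Let S × Bool)} {k : ℕ} {z : Chn σ} (h : Has σ W k z) :
    PresentedGroup.mk (rels σ) (val W) = 1 := by
  obtain ⟨D, hW, -, -⟩ := h
  have h1 := D.walk (D.wk none)
  rw [D.base, hW, one_mul] at h1
  exact h1

theorem has_lolly {W : List (Let S × Bool)} {k : ℕ} {z : Chn σ} (h : Has σ W k z)
    (v : List (Let S × Bool)) (q0 : Port S) :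
    Has σ (W ++ v ++ winv (relw σ q0) ++ winv v) (k + 1)
      (pch σ (PresentedGroup.mk (rels σ) (val v)) q0 + z) := by
  obtain ⟨a, b, R, hR⟩ : ∃ a b R, relw σ q0 = (a, b) :: R :=
    ⟨_, _, _, rfl⟩
  have h1 : Has σ (W ++ v ++ winv v) k z := by
    have := has_path (W1 := W) (W2 := []) (by simpa using h) v
    simpa using this
  have h2 : Has σ ((W ++ v ++ winv R) ++ R ++ winv v) k z := by
    have := has_path (W1 := W ++ v) (W2 := winv v) h1 (winv R)
    rwa [winv_winv] at this
  have h3 := has_chord h2 hR
  have h4 : val (W ++ v ++ winv R ++ R) = val W * val v := by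
    rw [val_append, val_append, val_append, val_winv, inv_mul_cancel_right]
  rw [h4, map_mul, has_val h, one_mul] at h3
  rw [hR, winv_cons]
  simpa using h3

theorem has_of_expr {k : ℕ} {u : FreeGroup (Let S)} {z : Chn σ} (h : Expr σ k u z) :
    ∃ W, Has σ W k z ∧ val (winv W) = u := by
  induction h with
  | nil => exact ⟨[], has_nil, rfl⟩
  | cons k u z v q0 _ ih =>
    obtain ⟨W, hW, hu⟩ := ih
    obtain ⟨L, hL⟩ : ∃ L, FreeGroup.mk L = v := ⟨v.toWord, FreeGroup.mk_toWord⟩
    refine ⟨_, by have := has_lolly hW L q0; rw [val, hL] at this; exact this, ?_⟩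
    rw [winv_append, winv_append, winv_append, winv_winv, winv_winv, val_append, val_append,
      val_append, hu, val_winv]
    have : val L = v := hL
    rw [this]
    group

/-- the complex with squares of a diagram -/
def DG.toSqK (D : DG σ) : SqK σ where
  toPC := D.toQC.toPC
  q := D.q
  sq := D.sq

/-- the potentials of a diagram -/
noncomputable def DG.gpot (D : DG σ) : D.toSqK.GPot where
  π := D.π
  st := D.st
  base := by
    intro d hd
    have h1 : D.org d = D.root none := wk_head (D.wk none) d hd
    exact (congrArg D.π h1).trans D.base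

theorem sum_head {X M : Type} [AddCommMonoid M] (l : List X) (d : X) (l' : List X)
    (h : l = d :: l') (g : X → M) : ∑ x ∈ (l.head?).toFinset, g x = g d := by
  subst h
  simp

theorem DG.chn_eq (D : DG σ) : D.toSqK.chn D.gpot univ = D.chn := by
  unfold SqK.chn DG.chn
  refine Finset.sum_congr rfl (fun f _ => ?_)
  obtain ⟨d, l, hl⟩ := List.exists_cons_of_ne_nil (D.ne f)
  have h2 : D.org d = D.root (some f) := wk_head (D.wk (some f)) d (by rw [hl]; rfl)
  exact (sum_head _ d l hl (fun d => pch σ (D.π (D.org d)) (D.q f))).trans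
    (congrArg (fun x => pch σ x (D.q f)) (congrArg D.π h2))

/-- StmtVK0 -/
theorem vk0 {k : ℕ} {u : FreeGroup (Let S)} {z : Chn σ} (h : Expr σ k u z) :
    ∃ (K : SqK σ) (P : K.GPot), Fintype.card K.F = k ∧ val K.outw = u ∧ K.chn P univ = z := by
  obtain ⟨W, ⟨D, hW, hk, hz⟩, hu⟩ := has_of_expr h
  refine ⟨D.toSqK, D.gpot, hk, ?_, D.chn_eq.trans hz⟩
  rw [← hu, ← hW]
  rfl

end Vale.Agent.P201.S.VK
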